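import Vale.Agent.P096.Uniform.Sum
import Vale.Agent.P082.Every.Glue
import Vale.Agent.P082.Every.A.Main
import Vale.Agent.P082.Every.B.Main
import Vale.Agent.P082.Every.C2.Main
import Vale.Agent.P082.Every.D.Main

/-!
# P096: primitives of cocycles with a uniform bound
-/

namespace Vale.Agent.P096.Uniform

open Vale.Agent.P082 (Alg Cochain hochDiff Vanishes)

universe u

/-- If every algebra has vanishing cohomology in degree `n + 1`, one constant bounds the
primitives in all algebras. -/
theorem exists_bound_of_vanishes {n : ℕ}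
    (hV : ∀ (H : Type u) [NormedAddCommGroup H] [InnerProductSpace ℂ H] [CompleteSpace H]
      (M : VonNeumannAlgebra H), Vanishes M n) :
    ∃ C : ℝ, 0 ≤ C ∧ ∀ (H : Type u) [NormedAddCommGroup H] [InnerProductSpace ℂ H]
      [CompleteSpace H] (M : VonNeumannAlgebra H) (f : Cochain M (n + 1)),
      (∀ a, hochDiff f a = 0) →
        ∃ g : Cochain M n, (∀ a, f a = hochDiff g a) ∧ ‖g‖ ≤ C * ‖f‖ := by
  by_contra hno
  push Not at hno
  choose H iN iI iC M f hf hlarge using fun k : ℕ => hno k (Nat.cast_nonneg k)
  have hf0 : ∀ k, 0 < ‖f k‖ := fun k => by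
    refine norm_pos_iff.2 fun h0 => ?_
    have h := hlarge k 0 fun a => by simp [h0, hochDiff]
    simp [h0] at h
  set c : ℕ → ℂ := fun k => ((‖f k‖⁻¹ : ℝ) : ℂ) with hc
  have hcn : ∀ k, ‖c k‖ * ‖f k‖ = 1 := fun k => by
    rw [hc, Complex.norm_real, norm_inv, norm_norm, inv_mul_cancel₀ (hf0 k).ne']
  have hbd : ∀ (a : Fin (n + 1) → Alg (sumAlg M)) k,
      ‖((c k • f k (fun i => entL M k (a i)) : Alg (M k)) : H k →L[ℂ] H k)‖ ≤ ∏ i, ‖a i‖ := by
    intro a k
    show ‖c k • f k (fun i => entL M k (a i))‖ ≤ _
    rw [norm_smul]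
    refine (mul_le_mul_of_nonneg_left ((f k).le_opNorm _) (norm_nonneg _)).trans ?_
    rw [← mul_assoc, hcn, one_mul]
    exact Finset.prod_le_prod (fun i _ => norm_nonneg _) fun i _ => norm_ent_le k _
  choose F hFn hFe using fun a : Fin (n + 1) → Alg (sumAlg M) =>
    exists_diag (M := M) (fun k => ((c k • f k (fun i => entL M k (a i)) : Alg (M k)) : _))
      (Finset.prod_nonneg fun i _ => norm_nonneg (a i)) (hbd a) (fun k => Subtype.coe_prop _)
  have hcomp : ∀ [DecidableEq (Fin (n + 1))] (a : Fin (n + 1) → Alg (sumAlg M)) (k : ℕ)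
      (i : Fin (n + 1))
      (x : Alg (sumAlg M)), (fun j => entL M k (Function.update a i x j)) =
        Function.update (fun j => entL M k (a j)) i (entL M k x) := fun {_} a k i x => by
    funext j
    rcases eq_or_ne j i with rfl | hj <;> simp [*]
  have hFk : ∀ a k, entL M k (F a) = c k • f k (fun i => entL M k (a i)) := fun a k =>
    Subtype.ext (hFe a k)
  let G : MultilinearMap ℂ (fun _ : Fin (n + 1) => Alg (sumAlg M)) (Alg (sumAlg M)) :=
    { toFun := F
      map_update_add' := fun {_} a i x y => ext_ent fun k => congrArg Subtype.val <|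
        show entL M k _ = entL M k _ by
          simp [hFk, hcomp, map_add, smul_add]
      map_update_smul' := fun {_} a i z x => ext_ent fun k => congrArg Subtype.val <|
        show entL M k _ = entL M k _ by
          simp [hFk, hcomp, map_smul, smul_comm (c k)] }
  set Φ : Cochain (sumAlg M) (n + 1) := G.mkContinuous 1 fun a => by
    rw [one_mul]; exact hFn a
  have hΦ : ∀ a k, entL M k (Φ a) = c k • f k (fun i => entL M k (a i)) := hFk
  have hd : ∀ a, hochDiff Φ a = 0 := fun a => ext_ent fun k => congrArg Subtype.val <|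
    show entL M k _ = entL M k 0 by
      have h := hf k fun i => entL M k (a i)
      have hc' : ∀ j : Fin (n + 1), (fun i => entL M k (Fin.contractNth j.castSucc (· * ·) a i)) =
          Fin.contractNth j.castSucc (· * ·) fun i => entL M k (a i) := fun j => by
        funext i
        simp only [Fin.contractNth]
        split_ifs <;> simp [entL_mul]
      have e : entL M k (hochDiff Φ a) = c k • hochDiff (f k) (fun i => entL M k (a i)) := by
        simp only [hochDiff, map_add, map_sum, map_smul, entL_mul, hΦ, hc', smul_add,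
          Finset.smul_sum, mul_smul_comm, smul_mul_assoc, smul_comm (c k), Fin.tail, Fin.init]
        rfl
      rw [e, h, smul_zero, map_zero]
  obtain ⟨g, hg⟩ := hV _ (sumAlg M) Φ hd
  obtain ⟨k, hk⟩ := exists_nat_gt ‖g‖
  set gk : Cochain (M k) n := (c k)⁻¹ •
    (entL M k).compContinuousMultilinearMap (g.compContinuousLinearMap fun _ => embL M k) with hgk
  have hck : c k ≠ 0 := fun h => by simpa [h] using hcn k
  have hap : ∀ b, gk b = (c k)⁻¹ • entL M k (g fun i => embL M k (b i)) := fun b => rfl
  have hprim : ∀ a, f k a = hochDiff gk a := fun a => by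
    have h := congrArg (entL M k) (hg fun i => embL M k (a i))
    simp only [hΦ, entL_embL] at h
    have hc' : ∀ j : Fin n, (fun i => embL M k (Fin.contractNth j.castSucc (· * ·) a i)) =
        Fin.contractNth j.castSucc (· * ·) fun i => embL M k (a i) := fun j => by
      funext i
      simp only [Fin.contractNth]
      split_ifs <;> simp [embL_mul]
    have e : hochDiff gk a = (c k)⁻¹ • entL M k (hochDiff g fun i => embL M k (a i)) := by
      simp only [hochDiff, map_add, map_sum, map_smul, entL_mul, entL_embL, hap, hc', smul_add,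
        Finset.smul_sum, mul_smul_comm, smul_mul_assoc, smul_comm (c k)⁻¹, Fin.tail, Fin.init]
      rfl
    rw [e, ← h, inv_smul_smul₀ hck]
  have hgn : ‖gk‖ ≤ ‖f k‖ * ‖g‖ := by
    refine ContinuousMultilinearMap.opNorm_le_bound (by positivity) fun b => ?_
    have hci : ‖(c k)⁻¹‖ = ‖f k‖ := by
      rw [norm_inv, inv_eq_iff_eq_inv, eq_inv_of_mul_eq_one_left (hcn k)]
    rw [hap, norm_smul, hci, mul_assoc]
    refine mul_le_mul_of_nonneg_left ?_ (norm_nonneg _)
    refine (norm_ent_le k _).trans ((g.le_opNorm _).trans (mul_le_mul_of_nonneg_left ?_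
      (norm_nonneg g)))
    exact Finset.prod_le_prod (fun i _ => norm_nonneg _) fun i _ => norm_block_le k _
  have := hlarge k gk hprim
  nlinarith [hf0 k]

/-- P082 with constants: one constant for all algebras, in every degree. -/
theorem exists_primitive_bound (n : ℕ) :
    ∃ C : ℝ, 0 ≤ C ∧ ∀ (H : Type u) [NormedAddCommGroup H] [InnerProductSpace ℂ H]
      [CompleteSpace H] (M : VonNeumannAlgebra H) (f : Cochain M (n + 1)),
      (∀ a, hochDiff f a = 0) →
        ∃ g : Cochain M n, (∀ a, f a = hochDiff g a) ∧ ‖g‖ ≤ C * ‖f‖ :=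
  exists_bound_of_vanishes fun H _ _ _ M =>
    Vale.Agent.P082.Every.Glue.stmtEvery_of Vale.Agent.P082.Every.A.stmtA
      Vale.Agent.P082.Every.B.stmtB Vale.Agent.P082.Every.C2.stmtC2
      Vale.Agent.P082.Every.D.stmtD H M n

end Vale.Agent.P096.Uniform
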