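import Vale.Agent.P082.Core

/-!
# P096: the bounded direct sum of a sequence of von Neumann algebras
-/

namespace Vale.Agent.P096.Uniform

open scoped InnerProductSpace ENNReal
open Vale.Agent.P082 (Alg)

universe u

variable {H : ℕ → Type u} [∀ k, NormedAddCommGroup (H k)] [∀ k, InnerProductSpace ℂ (H k)]
  [∀ k, CompleteSpace (H k)]

variable (H) in
/-- The sum of the spaces. -/
abbrev SumSpace : Type u := lp H 2

omit [∀ k, CompleteSpace (H k)] in
theorem ext_apply {A B : SumSpace H →L[ℂ] SumSpace H} (h : ∀ v k, A v k = B v k) : A = B :=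
  ContinuousLinearMap.ext fun v => lp.ext (funext fun k => h v k)

/-- An operator on one summand, acting on the sum. -/
noncomputable def block (k : ℕ) (y : H k →L[ℂ] H k) : SumSpace H →L[ℂ] SumSpace H :=
  (lp.singleContinuousLinearMap ℂ H 2 k).comp (y.comp (lp.evalCLM ℂ H 2 k))

omit [∀ k, CompleteSpace (H k)] in
theorem block_apply (k : ℕ) (y : H k →L[ℂ] H k) (v : SumSpace H) :
    block k y v = lp.single 2 k (y (v k)) := rfl

omit [∀ k, CompleteSpace (H k)] in
theorem block_apply_self (k : ℕ) (y : H k →L[ℂ] H k) (v : SumSpace H) :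
    block k y v k = y (v k) := lp.single_apply_self 2 k (y (v k))

omit [∀ k, CompleteSpace (H k)] in
theorem block_apply_ne {k j : ℕ} (h : j ≠ k) (y : H k →L[ℂ] H k) (v : SumSpace H) :
    block k y v j = 0 := lp.single_apply_ne 2 k (y (v k)) h

omit [∀ k, CompleteSpace (H k)] in
theorem block_mul (k : ℕ) (x y : H k →L[ℂ] H k) : block k (x * y) = block k x * block k y :=
  ContinuousLinearMap.ext fun v => by
    rw [block_apply, mul_apply_eq_comp, mul_apply_eq_comp, block_apply, block_apply_self]

omit [∀ k, CompleteSpace (H k)] in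
theorem norm_block_le (k : ℕ) (y : H k →L[ℂ] H k) : ‖block k y‖ ≤ ‖y‖ :=
  ContinuousLinearMap.opNorm_le_bound _ (norm_nonneg y) fun v => by
    rw [block_apply, lp.norm_single (by norm_num)]
    exact (y.le_opNorm _).trans
      (mul_le_mul_of_nonneg_left (lp.norm_apply_le_norm (by norm_num) v k) (norm_nonneg y))

theorem star_block (k : ℕ) (y : H k →L[ℂ] H k) : star (block k y) = block k (star y) := by
  refine ((ContinuousLinearMap.eq_adjoint_iff _ _).2 fun v w => ?_).symm
  rw [block_apply, block_apply, lp.inner_single_left, lp.inner_single_right,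
    ContinuousLinearMap.star_eq_adjoint, ContinuousLinearMap.adjoint_inner_left]

/-- The diagonal entry. -/
noncomputable def ent (k : ℕ) (T : SumSpace H →L[ℂ] SumSpace H) : H k →L[ℂ] H k :=
  (lp.evalCLM ℂ H 2 k).comp (T.comp (lp.singleContinuousLinearMap ℂ H 2 k))

omit [∀ k, CompleteSpace (H k)] in
theorem ent_apply (k : ℕ) (T : SumSpace H →L[ℂ] SumSpace H) (u : H k) :
    ent k T u = T (lp.single 2 k u) k := rfl

omit [∀ k, CompleteSpace (H k)] in
theorem ent_block (k : ℕ) (y : H k →L[ℂ] H k) : ent k (block k y) = y :=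
  ContinuousLinearMap.ext fun u => by
    rw [ent_apply, block_apply_self, lp.single_apply_self]

omit [∀ k, CompleteSpace (H k)] in
theorem norm_ent_le (k : ℕ) (T : SumSpace H →L[ℂ] SumSpace H) : ‖ent k T‖ ≤ ‖T‖ :=
  ContinuousLinearMap.opNorm_le_bound _ (norm_nonneg T) fun u => by
    rw [ent_apply]
    refine (lp.norm_apply_le_norm (by norm_num) _ k).trans ((T.le_opNorm _).trans_eq ?_)
    rw [lp.norm_single (by norm_num)]

/-- The bounded sum of the algebras. -/
noncomputable def sumAlg (M : ∀ k, VonNeumannAlgebra (H k)) : VonNeumannAlgebra (SumSpace H) where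
  toStarSubalgebra := StarSubalgebra.centralizer ℂ
    (⋃ k, block k '' ((M k).commutant : Set (H k →L[ℂ] H k)))
  centralizer_centralizer' := by simp

variable {M : ∀ k, VonNeumannAlgebra (H k)}

theorem mem_sumAlg {T : SumSpace H →L[ℂ] SumSpace H} :
    T ∈ sumAlg M ↔ ∀ k, ∀ y ∈ (M k).commutant, block k y * T = T * block k y := by
  refine (StarSubalgebra.mem_centralizer_iff ℂ).trans ⟨fun h k y hy => ?_, ?_⟩
  · exact (h _ (Set.mem_iUnion.2 ⟨k, y, hy, rfl⟩)).1
  · rintro h _ hS
    obtain ⟨k, y, hy, rfl⟩ := Set.mem_iUnion.1 hS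
    exact ⟨h k y hy, by rw [star_block]; exact h k _ (star_mem hy)⟩

theorem apply_eq_ent {T : SumSpace H →L[ℂ] SumSpace H} (hT : T ∈ sumAlg M) (v : SumSpace H)
    (k : ℕ) : T v k = ent k T (v k) := by
  have h := congrArg (fun S : SumSpace H →L[ℂ] SumSpace H => S v k)
    (mem_sumAlg.1 hT k 1 (one_mem _))
  simpa only [mul_apply_eq_comp, block_apply_self, one_apply_eq_self, block_apply,
    ← ent_apply, lp.single_apply_self] using h

theorem ent_mem {T : SumSpace H →L[ℂ] SumSpace H} (hT : T ∈ sumAlg M) (k : ℕ) :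
    ent k T ∈ M k := by
  suffices h : ent k T ∈ (M k).commutant.commutant by
    rwa [VonNeumannAlgebra.commutant_commutant] at h
  rw [VonNeumannAlgebra.mem_commutant_iff]
  intro y hy
  refine ContinuousLinearMap.ext fun u => ?_
  have h := congrArg (fun S : SumSpace H →L[ℂ] SumSpace H => S (lp.single 2 k u) k)
    (mem_sumAlg.1 hT k y hy)
  simpa only [mul_apply_eq_comp, block_apply_self, block_apply, lp.single_apply_self,
    ← ent_apply] using h

theorem block_mem {k : ℕ} {x : H k →L[ℂ] H k} (hx : x ∈ M k) : block k x ∈ sumAlg M := by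
  refine mem_sumAlg.2 fun j y hy => ?_
  rcases eq_or_ne j k with rfl | hj
  · rw [← block_mul, ← block_mul, VonNeumannAlgebra.mem_commutant_iff.1 hy x hx]
  · refine ext_apply fun v i => ?_
    simp only [mul_apply_eq_comp]
    rcases eq_or_ne i j with rfl | hi
    · rw [block_apply_self, block_apply_ne hj, map_zero, block_apply_ne hj]
    · rw [block_apply_ne hi]
      rcases eq_or_ne i k with rfl | hik
      · rw [block_apply_self, block_apply_ne hi, map_zero]
      · rw [block_apply_ne hik]

theorem ent_mul {S T : SumSpace H →L[ℂ] SumSpace H} (hS : S ∈ sumAlg M) (k : ℕ) :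
    ent k (S * T) = ent k S * ent k T :=
  ContinuousLinearMap.ext fun u => apply_eq_ent hS _ k

omit [∀ k, CompleteSpace (H k)] in
theorem diag_mem_lp (x : ∀ k, H k →L[ℂ] H k) {C : ℝ} (hC : 0 ≤ C) (hx : ∀ k, ‖x k‖ ≤ C)
    (v : SumSpace H) : Memℓp (fun k => x k (v k)) 2 ∧
      ∀ h : Memℓp (fun k => x k (v k)) 2, ‖(⟨_, h⟩ : SumSpace H)‖ ≤ C * ‖v‖ := by
  have hle : ∀ k, ‖x k (v k)‖ ≤ ‖((C : ℂ) • v) k‖ := fun k => by
    rw [lp.coeFn_smul, Pi.smul_apply, norm_smul, Complex.norm_real, Real.norm_of_nonneg hC]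
    exact ((x k).le_opNorm _).trans (mul_le_mul_of_nonneg_right (hx k) (norm_nonneg _))
  refine ⟨memℓp_gen ?_, fun h => (lp.norm_mono (by norm_num) hle).trans_eq ?_⟩
  · exact Summable.of_nonneg_of_le (fun k => Real.rpow_nonneg (norm_nonneg _) _)
      (fun k => Real.rpow_le_rpow (norm_nonneg _) (hle k) (by norm_num))
      ((lp.memℓp ((C : ℂ) • v)).summable (by norm_num))
  · rw [norm_smul, Complex.norm_real, Real.norm_of_nonneg hC]

/-- A bounded sequence as a block diagonal operator. -/
theorem exists_diag (x : ∀ k, H k →L[ℂ] H k) {C : ℝ} (hC : 0 ≤ C) (hx : ∀ k, ‖x k‖ ≤ C)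
    (hM : ∀ k, x k ∈ M k) :
    ∃ T : Alg (sumAlg M), ‖T‖ ≤ C ∧ ∀ k, ent k (T : SumSpace H →L[ℂ] SumSpace H) = x k := by
  let D : SumSpace H →ₗ[ℂ] SumSpace H :=
    { toFun := fun v => ⟨fun k => x k (v k), (diag_mem_lp x hC hx v).1⟩
      map_add' := fun v w => lp.ext (funext fun k => map_add (x k) (v k) (w k))
      map_smul' := fun c v => lp.ext (funext fun k => map_smul (x k) c (v k)) }
  set T := D.mkContinuous C fun v => (diag_mem_lp x hC hx v).2 (diag_mem_lp x hC hx v).1 with hT
  have hap : ∀ v k, T v k = x k (v k) := fun v k => rfl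
  have hmem : T ∈ sumAlg M := by
    refine mem_sumAlg.2 fun j y hy => ext_apply fun v i => ?_
    simp only [mul_apply_eq_comp, hap]
    rcases eq_or_ne i j with rfl | hi
    · rw [block_apply_self, block_apply_self, hap]
      exact (congrArg (fun S : H i →L[ℂ] H i => S (v i))
        (VonNeumannAlgebra.mem_commutant_iff.1 hy _ (hM i))).symm
    · rw [block_apply_ne hi, block_apply_ne hi, map_zero]
  refine ⟨⟨T, hmem⟩, LinearMap.mkContinuous_norm_le D hC fun v => (diag_mem_lp x hC hx v).2 (diag_mem_lp x hC hx v).1, fun k => ?_⟩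
  exact ContinuousLinearMap.ext fun u => by
    rw [ent_apply, hap, lp.single_apply_self]

theorem ext_ent {S T : Alg (sumAlg M)}
    (h : ∀ k, ent k (S : SumSpace H →L[ℂ] SumSpace H) = ent k (T : SumSpace H →L[ℂ] SumSpace H)) :
    S = T :=
  Subtype.ext (ext_apply fun v k => by rw [apply_eq_ent S.2, apply_eq_ent T.2, h])

/-- The entry as a linear map. -/
noncomputable def entL (M : ∀ k, VonNeumannAlgebra (H k)) (k : ℕ) :
    Alg (sumAlg M) →L[ℂ] Alg (M k) :=
  LinearMap.mkContinuous
    { toFun := fun T => ⟨ent k T, ent_mem T.2 k⟩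
      map_add' := fun S T => Subtype.ext (ContinuousLinearMap.ext fun u => rfl)
      map_smul' := fun c T => Subtype.ext (ContinuousLinearMap.ext fun u => rfl) } 1
    fun T => (norm_ent_le k _).trans_eq (one_mul _).symm

theorem entL_coe (k : ℕ) (T : Alg (sumAlg M)) :
    (entL M k T : H k →L[ℂ] H k) = ent k (T : SumSpace H →L[ℂ] SumSpace H) := rfl

theorem entL_mul (k : ℕ) (S T : Alg (sumAlg M)) : entL M k (S * T) = entL M k S * entL M k T :=
  Subtype.ext (ent_mul S.2 k)

/-- A summand as a linear map. -/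
noncomputable def embL (M : ∀ k, VonNeumannAlgebra (H k)) (k : ℕ) :
    Alg (M k) →L[ℂ] Alg (sumAlg M) :=
  LinearMap.mkContinuous
    { toFun := fun x => ⟨block k x, block_mem x.2⟩
      map_add' := fun x y => Subtype.ext (ext_apply fun v i => by
        rcases eq_or_ne i k with rfl | hi
        · simp [block_apply_self]
        · simp [block_apply_ne hi])
      map_smul' := fun c x => Subtype.ext (ext_apply fun v i => by
        rcases eq_or_ne i k with rfl | hi
        · simp [block_apply_self]
        · simp [block_apply_ne hi]) } 1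
    fun x => (norm_block_le k _).trans_eq (one_mul _).symm

theorem embL_mul (k : ℕ) (x y : Alg (M k)) : embL M k (x * y) = embL M k x * embL M k y :=
  Subtype.ext (block_mul k _ _)

theorem entL_embL (k : ℕ) (x : Alg (M k)) : entL M k (embL M k x) = x :=
  Subtype.ext (ent_block k _)

end Vale.Agent.P096.Uniform
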